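import Vale.Agent.P092.UN.StLs
import Vale.Agent.P092.UN.StL

/-!
P092 (helper993): the short form of `IsLie` is equivalent to the long one.
-/

namespace Vale.Agent.P092.H993

open Vale.Agent.P092.UN
open Vale.Agent.P092.H35.Rp (IsExp IsLie)

theorem isLie_of_isLieS {k G : Type} [Field k] [TopologicalSpace k] [Group G] [TopologicalSpace G]
    (h : IsLieS k G) : IsLie k G := by
  obtain ⟨L, i1, i2, n, b, ρ, a, h1, h2, h3, h4, h5, h6, h7, h8, h9, h10⟩ := h
  have hli : LinearIndependent k b := by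
    rw [Fintype.linearIndependent_iff]
    intro c hc
    obtain ⟨c0, -, hc0⟩ := h3 0
    have e1 : c = c0 := hc0 c hc.symm
    have e2 : (0 : Fin n → k) = c0 := hc0 0 (by simp)
    intro i
    rw [e1, ← e2]; rfl
  have hsp : ⊤ ≤ Submodule.span k (Set.range b) := by
    rintro x -
    obtain ⟨c, hc, -⟩ := h3 x
    change x = _ at hc
    rw [hc]
    exact Submodule.sum_mem _ fun i _ => Submodule.smul_mem _ _ (Submodule.subset_span ⟨i, rfl⟩)
  let B : Module.Basis (Fin n) k L := Module.Basis.mk hli hsp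
  have hB : ∀ i, B i = b i := fun i => by rw [Module.Basis.mk_apply]
  let R : G →* Module.End k L :=
    { toFun := fun g => IsLinearMap.mk' (ρ g) (h4 g)
      map_one' := by ext x; exact h5 x
      map_mul' := fun g h => by ext x; exact h6 g h x }
  have hR : ∀ g x, R g x = ρ g x := fun g x => rfl
  refine ⟨L, i1, i2, n, B, R, h1, h2, h7, fun x ψ hx => ?_, ?_⟩
  · obtain ⟨g, hg⟩ := h8 x ψ hx
    exact ⟨g, by rw [← hg]; rfl⟩
  · have : (fun g (i j : Fin n) => B.repr (R g (B j)) i) = a := by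
      funext g i j
      rw [hR, hB, h9]
      have : (∑ i, a g i j • b i) = ∑ i, a g i j • B i := by
        simp only [hB]
      rw [this, B.repr_sum_self]
    rw [this]
    exact h10

theorem isLieS_of_isLie {k G : Type} [Field k] [TopologicalSpace k] [Group G] [TopologicalSpace G]
    (h : IsLie k G) : IsLieS k G := by
  obtain ⟨L, i1, i2, n, B, R, h1, h2, h3, h4, h5⟩ := h
  refine ⟨L, i1, i2, n, B, fun g x => R g x, fun g i j => B.repr (R g (B j)) i, h1, h2, ?_,
    fun g => ⟨map_add (R g), map_smul (R g)⟩, fun x => ?_, fun g h x => ?_, h3, fun x ψ hx => ?_,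
    fun g j => ?_, h5⟩
  · intro x
    refine ⟨fun i => B.repr x i, (B.sum_repr x).symm, fun c hc => ?_⟩
    funext i
    have : B.repr x i = B.repr (∑ i, c i • B i) i := by rw [← hc]
    rw [B.repr_sum_self] at this
    exact this.symm
  · change R 1 x = x
    rw [map_one]; rfl
  · change R (g * h) x = R g (R h x)
    rw [map_mul]; rfl
  · obtain ⟨g, hg⟩ := h4 x ψ hx
    exact ⟨g, hg⟩
  · exact (B.sum_repr (R g (B j))).symm

theorem isLieS_iff {k G : Type} [Field k] [TopologicalSpace k] [Group G] [TopologicalSpace G] :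
    IsLieS k G ↔ IsLie k G := ⟨isLie_of_isLieS, isLieS_of_isLie⟩

theorem typeLS_iff {G : Type} [Group G] [TopologicalSpace G] : TypeLS G ↔ TypeL G :=
  ⟨fun ⟨k, i, h1, h2, h3, h4⟩ => ⟨k, i, h1, h2, h3, isLieS_iff.1 h4⟩,
    fun ⟨k, i, h1, h2, h3, h4⟩ => ⟨k, i, h1, h2, h3, isLieS_iff.2 h4⟩⟩

end Vale.Agent.P092.H993
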