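import Vale.Agent.P092.UN.StT
import Vale.Agent.P092.UN.StM
import Vale.Agent.P092.H962.MX.KazT

/-!
P092 (helper993): the short forms of Kazhdan's property (T) are equivalent to the long ones.
-/

namespace Vale.Agent.P092.H993

open Vale.Agent.P092.UN
open Vale.Agent.P092.H962.MX (KazT)

section
variable {G : Type} [Group G] {H : Type} [NormedAddCommGroup H] [InnerProductSpace ℂ H]

/-- the operators of a unitary representation which is given by functions -/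
noncomputable def toHom (σ : G → H → H) (h1 : ∀ g, IsLinearMap ℂ (σ g)) (h2 : ∀ g v, ‖σ g v‖ = ‖v‖)
    (h3 : ∀ v, σ 1 v = v) (h4 : ∀ g h v, σ (g * h) v = σ g (σ h v)) : G →* (H →L[ℂ] H) where
  toFun g := LinearMap.mkContinuous (IsLinearMap.mk' (σ g) (h1 g)) 1 (fun v => by
    rw [one_mul]; exact (h2 g v).le)
  map_one' := by ext v; exact h3 v
  map_mul' g h := by ext v; exact h4 g h v

theorem toHom_apply (σ : G → H → H) (h1 : ∀ g, IsLinearMap ℂ (σ g)) (h2 : ∀ g v, ‖σ g v‖ = ‖v‖)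
    (h3 : ∀ v, σ 1 v = v) (h4 : ∀ g h v, σ (g * h) v = σ g (σ h v)) (g : G) (v : H) :
    toHom σ h1 h2 h3 h4 g v = σ g v := rfl

end

theorem propT_of_hasT {Γ : Type} [Group Γ] (h : HasT Γ) : PropT Γ := by
  obtain ⟨Q, κ, hκ, h⟩ := h
  refine ⟨Q, κ, hκ, fun H _ _ _ σ h2 h5 v => ?_⟩
  refine h H (fun g v => σ g v) (fun g => ⟨fun a b => map_add (σ g) a b, fun c a => map_smul (σ g) c a⟩)
    h2 (fun v => ?_) (fun g k v => ?_) h5 v
  · rw [map_one]; rfl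
  · rw [map_mul]; rfl

theorem hasT_of_propT {Γ : Type} [Group Γ] (h : PropT Γ) : HasT Γ := by
  obtain ⟨Q, κ, hκ, h⟩ := h
  refine ⟨Q, κ, hκ, fun H _ _ _ σ h1 h2 h3 h4 h5 v => ?_⟩
  exact h H (toHom σ h1 h2 h3 h4) h2 h5 v

theorem hasT_iff {Γ : Type} [Group Γ] : HasT Γ ↔ PropT Γ := ⟨propT_of_hasT, hasT_of_propT⟩

theorem kazT_of_hasTC {G : Type} [Group G] [TopologicalSpace G] (h : HasTC G) : KazT G := by
  obtain ⟨Q, κ, hQ, hκ, h⟩ := h
  refine ⟨Q, κ, hQ, hκ, fun H _ _ _ σ h2 hc h5 v => ?_⟩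
  refine h H (fun g v => σ g v) (fun g => ⟨fun a b => map_add (σ g) a b, fun c a => map_smul (σ g) c a⟩)
    h2 (fun v => ?_) (fun g k v => ?_) hc h5 v
  · rw [map_one]; rfl
  · rw [map_mul]; rfl

theorem hasTC_of_kazT {G : Type} [Group G] [TopologicalSpace G] (h : KazT G) : HasTC G := by
  obtain ⟨Q, κ, hQ, hκ, h⟩ := h
  refine ⟨Q, κ, hQ, hκ, fun H _ _ _ σ h1 h2 h3 h4 hc h5 v => ?_⟩
  exact h H (toHom σ h1 h2 h3 h4) h2 hc h5 v

theorem hasTC_iff {G : Type} [Group G] [TopologicalSpace G] : HasTC G ↔ KazT G :=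
  ⟨kazT_of_hasTC, hasTC_of_kazT⟩

end Vale.Agent.P092.H993
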